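import Vale.Agent.P237.Quant.TailData.N42.tailN42P0Part0
import Vale.Agent.P237.Quant.TailData.N42.tailN42P0Part1
import Vale.Agent.P237.Quant.TailData.N42.tailN42P0Part2
import Vale.Agent.P237.Quant.TailData.N42.tailN42P0Part3
import Vale.Agent.P237.Quant.TailData.N42.tailN42P0Part4
import Vale.Agent.P237.Quant.TailData.N42.tailN42P0Part5
import Vale.Agent.P237.Quant.TailData.N42.tailN42P0Part6

/-!
Tail calibration tailN42P0 in dimension 42. The check. Generated data, checked by the kernel.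
-/

set_option maxRecDepth 100000
set_option linter.all false

namespace Vale.Agent.P237.Quant.TailData

open TailCert


/-- The calibration. -/
noncomputable def tailN42P0 : Cfg :=
  tailN42P0Base.withIvals (List.flatten [tailN42P0L0, tailN42P0L1, tailN42P0L2, tailN42P0L3, tailN42P0L4, tailN42P0L5, tailN42P0L6, tailN42P0L7, tailN42P0L8, tailN42P0L9, tailN42P0L10, tailN42P0L11, tailN42P0L12, tailN42P0L13, tailN42P0L14, tailN42P0L15, tailN42P0L16, tailN42P0L17, tailN42P0L18, tailN42P0L19, tailN42P0L20, tailN42P0L21, tailN42P0L22, tailN42P0L23, tailN42P0L24, tailN42P0L25, tailN42P0L26])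

theorem tailN42P0_parts : [tailN42P0L0, tailN42P0L1, tailN42P0L2, tailN42P0L3, tailN42P0L4, tailN42P0L5, tailN42P0L6, tailN42P0L7, tailN42P0L8, tailN42P0L9, tailN42P0L10, tailN42P0L11, tailN42P0L12, tailN42P0L13, tailN42P0L14, tailN42P0L15, tailN42P0L16, tailN42P0L17, tailN42P0L18, tailN42P0L19, tailN42P0L20, tailN42P0L21, tailN42P0L22, tailN42P0L23, tailN42P0L24, tailN42P0L25, tailN42P0L26].Forall fun l => tailN42P0Base.partUsed tailN42P0Used l = true := by
  simp only [List.forall_cons, List.Forall]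
  exact ⟨tailN42P0L0_ok, tailN42P0L1_ok, tailN42P0L2_ok, tailN42P0L3_ok, tailN42P0L4_ok, tailN42P0L5_ok, tailN42P0L6_ok, tailN42P0L7_ok, tailN42P0L8_ok, tailN42P0L9_ok, tailN42P0L10_ok, tailN42P0L11_ok, tailN42P0L12_ok, tailN42P0L13_ok, tailN42P0L14_ok, tailN42P0L15_ok, tailN42P0L16_ok, tailN42P0L17_ok, tailN42P0L18_ok, tailN42P0L19_ok, tailN42P0L20_ok, tailN42P0L21_ok, tailN42P0L22_ok, tailN42P0L23_ok, tailN42P0L24_ok, tailN42P0L25_ok, tailN42P0L26_ok⟩

theorem tailN42P0_check : tailN42P0.check = true :=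
  Cfg.check_of_parts (by decide +kernel) tailN42P0_parts

end Vale.Agent.P237.Quant.TailData
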