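import Vale.Agent.P237.Quant.TailPartsLink
import Vale.Agent.P237.Quant.RowTables
import Vale.Agent.P237.Quant.EnvelopeTableData.N36
import Vale.Agent.P237.Quant.TailData.N42.tailN42P0
import Vale.Agent.P237.Quant.TailData.N42.tailN42P1
import Vale.Agent.P237.Quant.TailData.N42.tailN42P2
import Vale.Agent.P237.Quant.TailData.N42.tailN42P3
import Vale.Agent.P237.Quant.TailData.N42.tailN42N0
import Vale.Agent.P237.Quant.TailData.N42.tailN42N1

/-!
The tail inequalities of the rows of both sides in dimension 42. Generated.
-/

namespace Vale.Agent.P237.Quant

open TailCert TailData

/-- The tail inequalities of `negRow14` in dimension 42. -/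
theorem negRow14_tailAt42 : negRow14.TailAt 41 := by
  intro P hP
  simp only [negRow14, binsOf, List.mem_cons, List.not_mem_nil, or_false] at hP
  rcases hP with rfl | rfl
  · exact tailBin_negParts tailN42N0_check tailN42N0_parts envTable42_check (by decide +kernel)
  · exact tailBin_negParts tailN42N1_check tailN42N1_parts envTable42_check (by decide +kernel)

/-- The tail inequalities of `posRow37` in dimension 42. -/
theorem posRow37_tailAt42 : posRow37.TailAt 41 := by
  intro P hP
  simp only [posRow37, posRowB, posCuts14, posCuts16, binsOf, List.mem_cons, List.not_mem_nil, or_false] at hP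
  rcases hP with rfl | rfl | rfl | rfl
  · exact tailBin_posParts tailN42P0_check tailN42P0_parts envTable42_check (by decide +kernel)
  · exact tailBin_posParts tailN42P1_check tailN42P1_parts envTable42_check (by decide +kernel)
  · exact tailBin_posParts tailN42P2_check tailN42P2_parts envTable42_check (by decide +kernel)
  · exact tailBin_posParts tailN42P3_check tailN42P3_parts envTable42_check (by decide +kernel)

end Vale.Agent.P237.Quant
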